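import Vale.Agent.P181.WC.DefsW

set_option autoImplicit false

/-!
# P181, WC: (W3), (W4)
-/

open scoped TensorProduct

namespace Vale.Agent.P181.WC.H153

open Finset Vale.Agent.P181.H280 Vale.Agent.P181

lemma XN_fin {n : ℕ} (c : Fin n) : XN n (c : ℕ) = MvPolynomial.X c := by
  rw [XN, dif_pos c.2]

lemma XN_mem (n m : ℕ) : XN n m ∈ linS n := by
  rw [XN]
  split_ifs with h
  · exact X_mem_linS _
  · exact Submodule.zero_mem _

/-- **[W4]** -/
theorem w4 : W4Stmt := by
  intro a b n l hw
  apply elOf_eq_zero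
  intro P hP
  apply multilinear_zero_of_span (formOf l)
    (Set.range (fun c : Fin b → Fin n => ∏ j, (MvPolynomial.X (c j) : MvPolynomial (Fin n) ℂ)))
  · intro w hw'
    choose c hc using hw'
    have h1 := hw fun p : Fin a × Fin b => (c p.1 p.2 : ℕ)
    rw [wf] at h1
    rw [← h1]
    congr 1
    funext i
    rw [← hc i]
    exact Finset.prod_congr rfl fun j _ => (XN_fin _).symm
  · intro i
    exact span_pow_eq _ _ (hP i)

lemma beta0_symm (a q : ℕ) (k : Fin q) (s i : Fin a) :
    (beta0 a q).symm (finProdFinEquiv (k, s), i) = (s, finProdFinEquiv (k, i)) := by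
  rw [Equiv.symm_apply_eq]
  simp only [beta0, Equiv.trans_apply, blockEquiv_apply, Equiv.symm_apply_apply,
    Equiv.prodComm_apply, Prod.swap_prod_mk]

/-- **[W3]** -/
theorem w3 : W3Stmt := by
  classical
  intro a q n l h0 w
  set F := formOf l with hF
  let cp : Fin a × Fin q ≃ Fin (q * a) := (Equiv.prodComm _ _).trans finProdFinEquiv
  have hcp : ∀ i k, cp (i, k) = finProdFinEquiv (k, i) := fun i k => rfl
  let M : MultilinearMap ℂ (fun _ : Fin (q * a) => MvPolynomial (Fin n) ℂ) ℂ :=
    (rowProd q F).domDomCongr cp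
  have hM : ∀ y, M y = F (fun i => ∏ k, y (finProdFinEquiv (k, i))) := by
    intro y
    simp only [M, MultilinearMap.domDomCongr_apply, rowProd_apply, hcp]
  let Y : Fin (q * a) → MvPolynomial (Fin n) ℂ := fun t =>
    ∏ i, XN n (w ((beta0 a q).symm (t, i)))
  have hY : ∀ t, Y t ∈ linS n ^ a := fun t => prod_mem_pow _ _ (fun i => XN_mem _ _)
  have h1 := polar M (linS n ^ a) (by
    intro G hG
    rw [hM, ← formOf_pow l h0 G hG]
    congr 1
    funext i
    rw [Finset.prod_const, Finset.card_univ, Fintype.card_fin]) Y hY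
  rw [← h1]
  apply Finset.sum_congr rfl
  intro π _
  rw [hM, wf]
  congr 1
  funext s
  rw [← Equiv.prod_comp finProdFinEquiv, Fintype.prod_prod_type]
  apply Finset.prod_congr rfl
  intro k _
  simp only [Y]
  apply Finset.prod_congr rfl
  intro i _
  have h2 : (beta0 a q) (s, finProdFinEquiv (k, i)) = (finProdFinEquiv (k, s), i) := by
    rw [← beta0_symm, Equiv.apply_symm_apply]
  simp only [Function.comp_apply, Equiv.trans_apply, h2, Equiv.prodCongr_apply, Prod.map_apply,
    Equiv.refl_apply]

end Vale.Agent.P181.WC.H153
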